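import Mathlib.Tactic.Linarith
import Mathlib.Tactic.Ring
import Mathlib.Tactic.FieldSimp
import Mathlib.Data.Fintype.BigOperators
import Mathlib.Algebra.BigOperators.Intervals
import Vale.Agent.P058.H840.Poly

/-!
Unisolvent point sets for the families `jp` and `hp`.
-/

namespace Vale.Agent.P058

open MvPolynomial

/-- twice the number of quadratic monomials `s_j s_i` with `i ≤ j` -/
private theorem two_mul_sum_succ (m : ℕ) : 2 * ∑ j : Fin m, ((j : ℕ) + 1) = m * (m + 1) := by
  induction m with
  | zero => simp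
  | succ n ih =>
    rw [Fin.sum_univ_castSucc, mul_add]
    simp only [Fin.val_castSucc, Fin.val_last]
    rw [ih]
    ring

theorem two_mul_card_JJ (m : ℕ) : 2 * Fintype.card (JJ m) = (m + 1) * (m + 4) := by
  have h := two_mul_sum_succ m
  simp only [JJ, Fintype.card_sum, Fintype.card_unit, Fintype.card_fin, Fintype.card_sigma]
  rw [mul_add, mul_add, mul_add, mul_add, h]
  ring

/-- the value of a combination of the `jp` -/
private theorem jp_eval {m : ℕ} (c : JJ m → ℝ) (s : Fin m → ℝ) :
    ∑ j, c j * eval s (jp j) =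
      c (.inl ()) + (c (.inr (.inl ())) * (∑ k, s k ^ 2) ^ 2 +
        (∑ k, c (.inr (.inr (.inl k))) * s k +
          (∑ k, c (.inr (.inr (.inr (.inl k)))) * (s k * ∑ l, s l ^ 2) +
            ∑ p : ((j : Fin m) × Fin ((j : ℕ) + 1)), c (.inr (.inr (.inr (.inr p)))) *
              (s p.1 * s (p.2.castLE p.1.2))))) := by
  simp only [JJ, Fintype.sum_sum_type, Finset.univ_unique, Finset.sum_singleton, jp, map_one,
    mul_one, map_pow, map_sum, map_mul, eval_X]

/-- the points for `jp` -/
noncomputable def jpt {m : ℕ} (o : Fin m) : JJ m → Fin m → ℝ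
  | .inl _ => 0
  | .inr (.inl _) => Pi.single o (-2)
  | .inr (.inr (.inl k)) => Pi.single k 1
  | .inr (.inr (.inr (.inl k))) => Pi.single k 2
  | .inr (.inr (.inr (.inr p))) =>
      if (p.2 : ℕ) = p.1 then Pi.single p.1 (-1)
      else Pi.single p.1 1 + Pi.single (p.2.castLE p.1.2) 1

private theorem sum_single_sq {m : ℕ} (k : Fin m) (t : ℝ) :
    ∑ l, (Pi.single k t : Fin m → ℝ) l ^ 2 = t ^ 2 := by
  rw [Finset.sum_eq_single k]
  · rw [Pi.single_eq_same]
  · intro b _ hb
    rw [Pi.single_eq_of_ne hb]
    simp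
  · simp

private theorem sum_quad_single {m : ℕ} (d : ((j : Fin m) × Fin ((j : ℕ) + 1)) → ℝ) (k : Fin m)
    (t : ℝ) :
    ∑ p : ((j : Fin m) × Fin ((j : ℕ) + 1)), d p *
      ((Pi.single k t : Fin m → ℝ) p.1 * (Pi.single k t : Fin m → ℝ) (p.2.castLE p.1.2)) =
      d ⟨k, Fin.last k⟩ * t ^ 2 := by
  have e : (Fin.last (k : ℕ)).castLE k.2 = k := by
    ext
    simp
  rw [Finset.sum_eq_single (⟨k, Fin.last k⟩ : (j : Fin m) × Fin ((j : ℕ) + 1))]
  · simp only
    rw [e, Pi.single_eq_same]
    ring
  · rintro ⟨j, i⟩ _ hne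
    by_cases h1 : j = k
    · subst h1
      have h2 : i.castLE j.2 ≠ j := by
        intro h3
        apply hne
        have h4 : (i : ℕ) = j := congrArg Fin.val h3
        have h5 : i = Fin.last (j : ℕ) := by
          ext
          rw [h4]
          simp
        rw [h5]
      simp only
      rw [Pi.single_eq_of_ne h2]
      ring
    · simp only
      rw [Pi.single_eq_of_ne h1]
      ring
  · simp

/-- the value on a coordinate axis -/
private theorem jp_eval_single {m : ℕ} (c : JJ m → ℝ) (k : Fin m) (t : ℝ) :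
    ∑ j, c j * eval (Pi.single k t) (jp j) =
      c (.inl ()) + c (.inr (.inl ())) * t ^ 4 + c (.inr (.inr (.inl k))) * t +
        c (.inr (.inr (.inr (.inl k)))) * t ^ 3 +
        c (.inr (.inr (.inr (.inr ⟨k, Fin.last k⟩)))) * t ^ 2 := by
  rw [jp_eval, sum_single_sq, sum_quad_single (fun p => c (.inr (.inr (.inr (.inr p)))))]
  have h1 : ∑ l, c (.inr (.inr (.inl l))) * (Pi.single k t : Fin m → ℝ) l =
      c (.inr (.inr (.inl k))) * t := by
    rw [Finset.sum_eq_single k]
    · rw [Pi.single_eq_same]
    · intro b _ hb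
      rw [Pi.single_eq_of_ne hb, mul_zero]
    · simp
  have h2 : ∑ l, c (.inr (.inr (.inr (.inl l)))) * ((Pi.single k t : Fin m → ℝ) l * t ^ 2) =
      c (.inr (.inr (.inr (.inl k)))) * t ^ 3 := by
    rw [Finset.sum_eq_single k]
    · rw [Pi.single_eq_same]
      ring
    · intro b _ hb
      rw [Pi.single_eq_of_ne hb, zero_mul, mul_zero]
    · simp
  rw [h1, h2]
  ring

theorem unisolvent_jp {m : ℕ} (hm : 1 ≤ m) :
    ∃ p : JJ m → Fin m → ℝ, ∀ c : JJ m → ℝ,
      (∀ i, ∑ j, c j * MvPolynomial.eval (p i) (jp j) = 0) → c = 0 := by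
  refine ⟨jpt ⟨0, hm⟩, fun c hc => ?_⟩
  have z0 : c (.inl ()) = 0 := by
    have h := hc (.inl ())
    simp only [jpt] at h
    rw [jp_eval] at h
    simpa using h
  have e1 : ∀ k : Fin m, c (.inr (.inl ())) + c (.inr (.inr (.inl k))) +
      c (.inr (.inr (.inr (.inl k)))) + c (.inr (.inr (.inr (.inr ⟨k, Fin.last k⟩)))) = 0 := by
    intro k
    have h := hc (.inr (.inr (.inl k)))
    simp only [jpt] at h
    rw [jp_eval_single, z0] at h
    linarith
  have e2 : ∀ k : Fin m, 16 * c (.inr (.inl ())) + 2 * c (.inr (.inr (.inl k))) +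
      8 * c (.inr (.inr (.inr (.inl k)))) +
        4 * c (.inr (.inr (.inr (.inr ⟨k, Fin.last k⟩)))) = 0 := by
    intro k
    have h := hc (.inr (.inr (.inr (.inl k))))
    simp only [jpt] at h
    rw [jp_eval_single, z0] at h
    linarith
  have e3 : ∀ k : Fin m, c (.inr (.inl ())) - c (.inr (.inr (.inl k))) -
      c (.inr (.inr (.inr (.inl k)))) + c (.inr (.inr (.inr (.inr ⟨k, Fin.last k⟩)))) = 0 := by
    intro k
    have h := hc (.inr (.inr (.inr (.inr ⟨k, Fin.last k⟩))))
    simp only [jpt, Fin.val_last, if_true] at h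
    rw [jp_eval_single, z0] at h
    linarith
  have e4 : 16 * c (.inr (.inl ())) - 2 * c (.inr (.inr (.inl ⟨0, hm⟩))) -
      8 * c (.inr (.inr (.inr (.inl ⟨0, hm⟩)))) +
        4 * c (.inr (.inr (.inr (.inr ⟨⟨0, hm⟩, Fin.last _⟩)))) = 0 := by
    have h := hc (.inr (.inl ()))
    simp only [jpt] at h
    rw [jp_eval_single, z0] at h
    linarith
  have z1 : c (.inr (.inl ())) = 0 := by
    have a1 := e1 ⟨0, hm⟩
    have a2 := e2 ⟨0, hm⟩
    have a3 := e3 ⟨0, hm⟩
    linarith
  have z2 : ∀ k : Fin m, c (.inr (.inr (.inl k))) = 0 := by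
    intro k
    have a1 := e1 k
    have a2 := e2 k
    have a3 := e3 k
    rw [z1] at a1 a2 a3
    linarith
  have z3 : ∀ k : Fin m, c (.inr (.inr (.inr (.inl k)))) = 0 := by
    intro k
    have a1 := e1 k
    have a3 := e3 k
    rw [z1, z2 k] at a1 a3
    linarith
  have z4 : ∀ k : Fin m, c (.inr (.inr (.inr (.inr ⟨k, Fin.last k⟩)))) = 0 := by
    intro k
    have a1 := e1 k
    rw [z1, z2 k, z3 k] at a1
    linarith
  have z5 : ∀ p : ((j : Fin m) × Fin ((j : ℕ) + 1)),
      c (.inr (.inr (.inr (.inr p)))) = 0 := by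
    rintro ⟨j, i⟩
    by_cases hij : (i : ℕ) = j
    · have h5 : i = Fin.last (j : ℕ) := by
        ext
        rw [hij]
        simp
      rw [h5]
      exact z4 j
    · have hlt : (i : ℕ) < j := lt_of_le_of_ne (Nat.lt_succ_iff.1 i.2) hij
      have h := hc (.inr (.inr (.inr (.inr ⟨j, i⟩))))
      simp only [jpt, if_neg hij] at h
      rw [jp_eval, z0, z1] at h
      simp only [z2, z3, zero_mul, Finset.sum_const_zero, zero_add] at h
      set s : Fin m → ℝ := Pi.single j 1 + Pi.single (i.castLE j.2) 1 with hs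
      have hjne : i.castLE j.2 ≠ j := fun h6 => hij (congrArg Fin.val h6)
      have sj : s j = 1 := by
        rw [hs, Pi.add_apply, Pi.single_eq_same, Pi.single_eq_of_ne hjne.symm, add_zero]
      have si : s (i.castLE j.2) = 1 := by
        rw [hs, Pi.add_apply, Pi.single_eq_same, Pi.single_eq_of_ne hjne, zero_add]
      have so : ∀ l, l ≠ j → l ≠ i.castLE j.2 → s l = 0 := by
        intro l h1 h2
        rw [hs, Pi.add_apply, Pi.single_eq_of_ne h1, Pi.single_eq_of_ne h2, add_zero]
      rw [Finset.sum_eq_single (⟨j, i⟩ : (j : Fin m) × Fin ((j : ℕ) + 1))] at h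
      · simp only at h
        rw [sj, si] at h
        linarith
      · rintro ⟨j', i'⟩ _ hne
        simp only
        by_cases hd : (i' : ℕ) = j'
        · have h5 : i' = Fin.last (j' : ℕ) := by
            ext
            rw [hd]
            simp
          rw [h5, z4 j', zero_mul]
        · have hlt' : (i' : ℕ) < j' := lt_of_le_of_ne (Nat.lt_succ_iff.1 i'.2) hd
          by_cases hj : j' = j
          · subst hj
            have h7 : i'.castLE j'.2 ≠ j' := fun h8 => hd (congrArg Fin.val h8)
            have h8 : i'.castLE j'.2 ≠ i.castLE j'.2 := by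
              intro h9
              apply hne
              have h10 : (i'.castLE j'.2 : Fin m).val = (i.castLE j'.2 : Fin m).val :=
                congrArg Fin.val h9
              have h11 : i' = i := Fin.ext h10
              rw [h11]
            rw [so _ h7 h8]
            ring
          · by_cases hj2 : j' = i.castLE j.2
            · have h7 : i'.castLE j'.2 ≠ j := by
                intro h8
                have h9 : (i' : ℕ) = j := congrArg Fin.val h8
                have h10 : (j' : ℕ) = i := congrArg Fin.val hj2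
                omega
              have h8 : i'.castLE j'.2 ≠ i.castLE j.2 := by
                intro h9
                have h10 : (i' : ℕ) = i := congrArg Fin.val h9
                have h11 : (j' : ℕ) = i := congrArg Fin.val hj2
                omega
              rw [so _ h7 h8]
              ring
            · rw [so _ hj hj2]
              ring
      · simp
  funext x
  rcases x with x | x | k | k | p
  · exact z0
  · exact z1
  · exact z2 k
  · exact z3 k
  · exact z5 p

/-- the value of a combination of the `hp` -/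
private theorem hp_eval {m : ℕ} (c : Option (Fin (m + 1)) → ℝ) (s : Fin m → ℝ) :
    ∑ j, c j * eval s (hp j) =
      c none * (∑ k, s k ^ 2 + 1) + (c (some 0) * (∑ k, s k ^ 2 - 1) +
        ∑ k, c (some (Fin.succ k)) * (2 * s k)) := by
  rw [Fintype.sum_option, Fin.sum_univ_succ]
  simp only [hp, Fin.cases_zero, Fin.cases_succ, map_add, map_sub, map_sum, map_pow, map_mul,
    eval_X, eval_C, map_one]

/-- the points for `hp` -/
noncomputable def hpt {m : ℕ} (o : Fin m) : Option (Fin (m + 1)) → Fin m → ℝ
  | none => 0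
  | some i => Fin.cases (Pi.single o (-1)) (fun k => Pi.single k 1) i

private theorem hp_eval_single {m : ℕ} (c : Option (Fin (m + 1)) → ℝ) (k : Fin m) (t : ℝ) :
    ∑ j, c j * eval (Pi.single k t) (hp j) =
      c none * (t ^ 2 + 1) + (c (some 0) * (t ^ 2 - 1) + c (some (Fin.succ k)) * (2 * t)) := by
  rw [hp_eval, sum_single_sq]
  have h1 : ∑ l, c (some (Fin.succ l)) * (2 * (Pi.single k t : Fin m → ℝ) l) =
      c (some (Fin.succ k)) * (2 * t) := by
    rw [Finset.sum_eq_single k]
    · rw [Pi.single_eq_same]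
    · intro b _ hb
      rw [Pi.single_eq_of_ne hb]
      ring
    · simp
  rw [h1]

theorem unisolvent_hp {m : ℕ} (hm : 1 ≤ m) :
    ∃ p : Option (Fin (m + 1)) → Fin m → ℝ, ∀ c : Option (Fin (m + 1)) → ℝ,
      (∀ i, ∑ j, c j * MvPolynomial.eval (p i) (hp j) = 0) → c = 0 := by
  refine ⟨hpt ⟨0, hm⟩, fun c hc => ?_⟩
  have a0 : c none - c (some 0) = 0 := by
    have h := hc none
    simp only [hpt] at h
    rw [hp_eval] at h
    simp only [Pi.zero_apply, ne_eq, OfNat.ofNat_ne_zero, not_false_eq_true, zero_pow,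
      Finset.sum_const_zero, zero_add, mul_one, mul_zero, add_zero, zero_sub, mul_neg] at h
    linarith
  have a1 : c none - c (some (Fin.succ ⟨0, hm⟩)) = 0 := by
    have h := hc (some 0)
    simp only [hpt, Fin.cases_zero] at h
    rw [hp_eval_single] at h
    linarith
  have a2 : ∀ k : Fin m, c none + c (some (Fin.succ k)) = 0 := by
    intro k
    have h := hc (some (Fin.succ k))
    simp only [hpt, Fin.cases_succ] at h
    rw [hp_eval_single] at h
    linarith
  have z : c none = 0 := by
    have := a2 ⟨0, hm⟩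
    linarith
  have z0 : c (some 0) = 0 := by linarith
  have zk : ∀ k : Fin m, c (some (Fin.succ k)) = 0 := by
    intro k
    have := a2 k
    linarith
  funext x
  rcases x with _ | i
  · exact z
  · refine Fin.cases ?_ (fun k => ?_) i
    · exact z0
    · exact zk k

end Vale.Agent.P058
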